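import Vale.Agent.P277.Stmts
import Mathlib.Topology.ContinuousMap.Bounded.Normed
import Mathlib.Analysis.Normed.Operator.Compact.Basic

/-!
# P277, T3 (ii), P1: pluriharmonic functions on compact complex manifolds (statements)
-/

open scoped Manifold ContDiff Topology
open Vale.Agent.P272.K Vale.Agent.P285.H281.FD Vale.Agent.P267.H175 Set Metric

noncomputable section

namespace Vale.Agent.P277.PH

section
variable {H : Type} [TopologicalSpace H]

/-- `g` is holomorphic near `x`. -/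
def HolF (n : ℕ) [ChartedSpace (Cm n) H] (g : H → ℂ) (x : H) : Prop :=
  ∀ e : Chart n H, At e x → AnalyticAt ℂ (fun z => g (e.symm z)) (e x)

/-- `g` is smooth at `x`. -/
def SmF (n : ℕ) [ChartedSpace (Cm n) H] (g : H → ℂ) (x : H) : Prop :=
  ∀ e : Chart n H, At e x → ContDiffAt ℝ ∞ (fun z => g (e.symm z)) (e x)

/-- `u` is smooth at `x`. -/
def SmR (n : ℕ) [ChartedSpace (Cm n) H] (u : H → ℝ) (x : H) : Prop :=
  ∀ e : Chart n H, At e x → ContDiffAt ℝ ∞ (fun z => u (e.symm z)) (e x)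

/-- `u` is pluriharmonic near `x`. -/
def PHAt (n : ℕ) [ChartedSpace (Cm n) H] (u : H → ℝ) (x : H) : Prop :=
  ∃ g : H → ℂ, HolF n g x ∧ ∀ᶠ y in 𝓝 x, u y = (g y).re

end

/-- (P1a) solution of the `∂̄`-equation on polydiscs: smooth functions with holomorphic differences
come from one smooth function. -/
def StDbar : Prop :=
  ∀ (n : ℕ) (c : Cm n) (r R : ℝ) (_ : 0 < r) (_ : r < R) (ι : Type) (U : ι → Set (Cm n))
    (g : ι → Cm n → ℂ) (_ : ∀ i, IsOpen (U i)) (_ : ball c R ⊆ ⋃ i, U i)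
    (_ : ∀ i, ∀ z ∈ U i, ContDiffAt ℝ ∞ (g i) z)
    (_ : ∀ i j, ∀ z ∈ U i ∩ U j, AnalyticAt ℂ (fun z => g i z - g j z) z),
    ∃ f : Cm n → ℂ, ContDiff ℝ ∞ f ∧
      ∀ i, ∀ z ∈ U i ∩ ball c r, AnalyticAt ℂ (fun z => f z - g i z) z

/-- (P1b) Schwartz: a compact perturbation of a surjective operator has a range of finite
codimension. -/
def StSchwartz : Prop :=
  ∀ (E F : Type) [NormedAddCommGroup E] [NormedSpace ℝ E] [CompleteSpace E]
    [NormedAddCommGroup F] [NormedSpace ℝ F] [CompleteSpace F] (u v : E →L[ℝ] F)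
    (_ : Function.Surjective u) (_ : IsCompactOperator v),
    FiniteDimensional ℝ (F ⧸ (u + v).range)

/-- the discrete space on `α` -/
def Dsc (α : Type) : Type := α

instance (α : Type) : TopologicalSpace (Dsc α) := ⊥

instance (α : Type) : DiscreteTopology (Dsc α) := ⟨rfl⟩

/-- families of bounded holomorphic functions on the sets `S i` (extended by `0`) -/
def HB {H : Type} [TopologicalSpace H] (n : ℕ) [ChartedSpace (Cm n) H] {I : Type}
    (S : I → Set H) : Submodule ℝ (BoundedContinuousFunction (Dsc (I × H)) ℂ) where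
  carrier := {f | (∀ i x, x ∉ S i → f (i, x) = 0) ∧
    ∀ i, ∀ x ∈ S i, HolF n (fun y => f (i, y)) x}
  add_mem' {f g} hf hg := ⟨fun i x hx => by
      show f (i, x) + g (i, x) = 0
      rw [hf.1 i x hx, hg.1 i x hx, add_zero],
    fun i x hx e he => (hf.2 i x hx e he).add (hg.2 i x hx e he)⟩
  zero_mem' := ⟨fun _ _ _ => rfl, fun _ _ _ _ _ => analyticAt_const⟩
  smul_mem' c f hf := ⟨fun i x hx => by
      show c • f (i, x) = 0
      rw [hf.1 i x hx, smul_zero],
    fun i x hx e he => by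
      have h := (analyticAt_const (v := (c : ℂ))).mul (hf.2 i x hx e he)
      refine h.congr (Filter.Eventually.of_forall fun y => ?_)
      show (c : ℂ) * f (i, e.symm y) = c • f (i, e.symm y)
      rw [Complex.real_smul]⟩

/-- (P1c) uniform limits of holomorphic functions are holomorphic -/
def StHBc : Prop :=
  ∀ (n : ℕ) (H : Type) [TopologicalSpace H] [ChartedSpace (Cm n) H]
    [IsManifold 𝓘(ℂ, Cm n) ω H] (I : Type) (S : I → Set H) (_ : ∀ i, IsOpen (S i)),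
    IsClosed (HB n S : Set (BoundedContinuousFunction (Dsc (I × H)) ℂ))

/-- (P1d) Montel: restriction is a compact operator -/
def StMontel : Prop :=
  ∀ (n : ℕ) (H : Type) [TopologicalSpace H] [T2Space H] [ChartedSpace (Cm n) H]
    [IsManifold 𝓘(ℂ, Cm n) ω H] (I : Type) [Finite I] (S S' : I → Set H)
    (_ : ∀ i, IsOpen (S i)) (_ : ∀ i, IsOpen (S' i))
    (_ : ∀ i, ∃ K, IsCompact K ∧ S' i ⊆ K ∧ K ⊆ S i),
    ∃ R : HB n S →L[ℝ] HB n S', (∀ f i, ∀ x ∈ S' i, (R f).1 (i, x) = f.1 (i, x)) ∧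
      IsCompactOperator R

/-- (P1e) finiteness of `H^1(H, O)`: among `N > h` families of smooth functions with holomorphic
differences, a nontrivial real combination is trivial. -/
def StFinO : Prop :=
  ∀ (n : ℕ) (H : Type) [TopologicalSpace H] [T2Space H] [CompactSpace H] [ChartedSpace (Cm n) H]
    [IsManifold 𝓘(ℂ, Cm n) ω H], ∃ h : ℕ, ∀ (N : ℕ) (_ : h < N) (ι : Fin N → Type)
    (U : ∀ k, ι k → Set H) (g : ∀ k, ι k → H → ℂ) (_ : ∀ k i, IsOpen (U k i))
    (_ : ∀ k x, ∃ i, x ∈ U k i) (_ : ∀ k i, ∀ x ∈ U k i, SmF n (g k i) x)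
    (_ : ∀ k i j, ∀ x ∈ U k i ∩ U k j, HolF n (fun y => g k i y - g k j y) x),
    ∃ (t : Fin N → ℝ) (φ : H → ℂ), t ≠ 0 ∧ (∀ x, SmF n φ x) ∧
      ∀ (i : ∀ k, ι k) (x : H), (∀ k, x ∈ U k (i k)) →
        HolF n (fun y => ∑ k, t k * g k (i k) y + φ y) x

/-- (P1) the same for real functions with pluriharmonic differences. -/
def StPH : Prop :=
  ∀ (n : ℕ) (H : Type) [TopologicalSpace H] [T2Space H] [CompactSpace H] [ChartedSpace (Cm n) H]
    [IsManifold 𝓘(ℂ, Cm n) ω H], ∃ h : ℕ, ∀ (N : ℕ) (_ : h < N) (ι : Fin N → Type)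
    (U : ∀ k, ι k → Set H) (f : ∀ k, ι k → H → ℝ) (_ : ∀ k i, IsOpen (U k i))
    (_ : ∀ k x, ∃ i, x ∈ U k i) (_ : ∀ k i, ∀ x ∈ U k i, SmR n (f k i) x)
    (_ : ∀ k i j, ∀ x ∈ U k i ∩ U k j, PHAt n (fun y => f k i y - f k j y) x),
    ∃ (t : Fin N → ℝ) (φ : H → ℝ), t ≠ 0 ∧ (∀ x, SmR n φ x) ∧
      ∀ (i : ∀ k, ι k) (x : H), (∀ k, x ∈ U k (i k)) →
        PHAt n (fun y => ∑ k, t k * f k (i k) y + φ y) x

end Vale.Agent.P277.PH
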