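import Vale.Agent.P277.H29.PH.Cov

/-!
# P277, P1: finiteness of `H^1(H, O)` from `∂̄`, Montel and Schwartz
-/

set_option linter.unusedSectionVars false

open scoped Manifold ContDiff Topology
open Vale.Agent.P272.K Vale.Agent.P285.H281.FD Vale.Agent.P267.H175 Set Metric Filter

noncomputable section

namespace Vale.Agent.P277.PH

/-- bounded functions on the discrete space -/
abbrev BD (α : Type) : Type := BoundedContinuousFunction (Dsc α) ℂ

/-- bounded functions -/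
def mkB {α : Type} (f : α → ℂ) (h : ∃ C : ℝ, ∀ x, ‖f x‖ ≤ C) : BD α :=
  BoundedContinuousFunction.ofNormedAddCommGroupDiscrete f h.choose h.choose_spec

theorem mkB_apply {α : Type} (f : α → ℂ) (h : ∃ C : ℝ, ∀ x, ‖f x‖ ≤ C) (x : α) :
    mkB f h x = f x := rfl

theorem BD.le {α : Type} (f : BD α) (x : α) : ‖f x‖ ≤ ‖f‖ := f.norm_coe_le_norm x

variable {n : ℕ} {H : Type} [TopologicalSpace H] [ChartedSpace (Cm n) H]

/-- intersections of two coordinate balls -/
def Cov.S (D : Cov n H) (k : ℝ) (p : D.A × D.A) : Set H := D.V k p.1 ∩ D.V k p.2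

theorem Cov.isOpen_S (D : Cov n H) (k : ℝ) (p : D.A × D.A) : IsOpen (D.S k p) :=
  (D.isOpen k p.1).inter (D.isOpen k p.2)

/-- the cocycle condition -/
def Cyc (D : Cov n H) (k : ℝ) : Submodule ℝ (BD ((D.A × D.A) × H)) where
  carrier := {f | ∀ a b c x, x ∈ D.V k a → x ∈ D.V k b → x ∈ D.V k c →
    f ((a, b), x) + f ((b, c), x) = f ((a, c), x)}
  add_mem' {f g} hf hg := fun a b c x ha hb hc => by
    have h1 := hf a b c x ha hb hc
    have h2 := hg a b c x ha hb hc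
    show (f ((a, b), x) + g ((a, b), x)) + (f ((b, c), x) + g ((b, c), x)) =
      f ((a, c), x) + g ((a, c), x)
    rw [← h1, ← h2]
    ring
  zero_mem' := fun a b c x _ _ _ => by
    show (0 : ℂ) + 0 = 0
    rw [add_zero]
  smul_mem' t f hf := fun a b c x ha hb hc => by
    have h1 := hf a b c x ha hb hc
    show t • f ((a, b), x) + t • f ((b, c), x) = t • f ((a, c), x)
    rw [← h1, smul_add]

theorem isClosed_Cyc (D : Cov n H) (k : ℝ) : IsClosed (Cyc D k : Set (BD ((D.A × D.A) × H))) := by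
  have : (Cyc D k : Set (BD ((D.A × D.A) × H))) = ⋂ (a) (b) (c) (x) (_ : x ∈ D.V k a)
      (_ : x ∈ D.V k b) (_ : x ∈ D.V k c), {f : BD ((D.A × D.A) × H) |
        f ((a, b), x) + f ((b, c), x) = f ((a, c), x)} := by
    ext f
    simp only [mem_iInter, mem_ofPred_eq]
    exact Iff.rfl
  rw [this]
  refine isClosed_iInter fun a => isClosed_iInter fun b => isClosed_iInter fun c =>
    isClosed_iInter fun x => isClosed_iInter fun _ => isClosed_iInter fun _ =>
    isClosed_iInter fun _ => isClosed_eq ?_ ?_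
  · exact (BoundedContinuousFunction.lipschitz_eval_const _).continuous.add
      (BoundedContinuousFunction.lipschitz_eval_const _).continuous
  · exact (BoundedContinuousFunction.lipschitz_eval_const _).continuous

/-- bounded holomorphic cocycles -/
def Zc (D : Cov n H) (k : ℝ) : Submodule ℝ (BD ((D.A × D.A) × H)) := HB n (D.S k) ⊓ Cyc D k

theorem isClosed_Zc [IsManifold 𝓘(ℂ, Cm n) ω H] (HB' : StHBc) (D : Cov n H) (k : ℝ) :
    IsClosed (Zc D k : Set (BD ((D.A × D.A) × H))) :=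
  (HB' n H _ (D.S k) (D.isOpen_S k)).inter (isClosed_Cyc D k)

/-- the coboundary -/
def dl (D : Cov n H) (c : BD (D.A × H)) : BD ((D.A × D.A) × H) := by
  classical
  exact mkB (fun p => if p.2 ∈ D.S 2 p.1 then c (p.1.1, p.2) - c (p.1.2, p.2) else 0)
    ⟨2 * ‖c‖, fun p => by
      split_ifs
      · refine (norm_sub_le _ _).trans ?_
        have h1 := c.norm_coe_le_norm (p.1.1, p.2)
        have h2 := c.norm_coe_le_norm (p.1.2, p.2)
        linarith
      · rw [norm_zero]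
        positivity⟩

theorem dl_of {D : Cov n H} {c : BD (D.A × H)} {a b : D.A} {x : H} (h : x ∈ D.S 2 (a, b)) :
    dl D c ((a, b), x) = c (a, x) - c (b, x) := by
  classical
  exact if_pos h

theorem dl_of_not {D : Cov n H} {c : BD (D.A × H)} {p : D.A × D.A} {x : H} (h : x ∉ D.S 2 p) :
    dl D c (p, x) = 0 := by
  classical
  exact if_neg h

theorem dl_mem {D : Cov n H} {c : BD (D.A × H)} (hc : c ∈ HB n (D.V 2)) : dl D c ∈ Zc D 2 := by
  refine ⟨⟨fun p x hx => dl_of_not hx, fun p x hx => ?_⟩, fun a b d x ha hb hd => ?_⟩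
  · refine ((hc.2 p.1 x hx.1).sub (hc.2 p.2 x hx.2)).congr ?_
    filter_upwards [(D.isOpen_S 2 p).mem_nhds hx] with y hy
    exact (dl_of hy).symm
  · rw [dl_of ⟨ha, hb⟩, dl_of ⟨hb, hd⟩, dl_of ⟨ha, hd⟩]
    ring

theorem norm_dl_le (D : Cov n H) (c : BD (D.A × H)) : ‖dl D c‖ ≤ 2 * ‖c‖ := by
  refine (BoundedContinuousFunction.norm_le (by positivity)).2 fun p => ?_
  obtain ⟨⟨a, b⟩, x⟩ := p
  by_cases h : x ∈ D.S 2 (a, b)
  · have h0 := dl_of (c := c) h
    have h1 := c.norm_coe_le_norm (a, x)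
    have h2 := c.norm_coe_le_norm (b, x)
    have h3 : ‖dl D c ((a, b), x)‖ ≤ 2 * ‖c‖ := by
      rw [h0]
      refine (norm_sub_le _ _).trans ?_
      linarith
    exact h3
  · have h0 := dl_of_not (c := c) h
    have h3 : ‖dl D c ((a, b), x)‖ ≤ 2 * ‖c‖ := by
      rw [h0, norm_zero]
      positivity
    exact h3

/-- the coboundary as a continuous linear map -/
def dlL (D : Cov n H) : HB n (D.V 2) →L[ℝ] Zc D 2 :=
  LinearMap.mkContinuous
    { toFun := fun c => ⟨dl D c.1, dl_mem c.2⟩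
      map_add' := fun c c' => by
        refine Subtype.ext (BoundedContinuousFunction.ext fun p => ?_)
        obtain ⟨⟨a, b⟩, x⟩ := p
        show dl D (c.1 + c'.1) ((a, b), x) = dl D c.1 ((a, b), x) + dl D c'.1 ((a, b), x)
        by_cases h : x ∈ D.S 2 (a, b)
        · rw [dl_of h, dl_of h, dl_of h]
          show (c.1 (a, x) + c'.1 (a, x)) - (c.1 (b, x) + c'.1 (b, x)) = _
          ring
        · rw [dl_of_not h, dl_of_not h, dl_of_not h, add_zero]
      map_smul' := fun t c => by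
        refine Subtype.ext (BoundedContinuousFunction.ext fun p => ?_)
        obtain ⟨⟨a, b⟩, x⟩ := p
        show dl D (t • c.1) ((a, b), x) = t • dl D c.1 ((a, b), x)
        by_cases h : x ∈ D.S 2 (a, b)
        · rw [dl_of h, dl_of h]
          show t • c.1 (a, x) - t • c.1 (b, x) = _
          rw [smul_sub]
        · rw [dl_of_not h, dl_of_not h, smul_zero] } 2 fun c => norm_dl_le D c.1

theorem dlL_apply (D : Cov n H) (c : HB n (D.V 2)) : (dlL D c).1 = dl D c.1 := rfl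

/-- cocycles from functions -/
theorem exists_coc (D : Cov n H) (k : ℝ) (F : D.A → H → ℂ)
    (hF : ∀ a b, ∀ x ∈ D.V k a ∩ D.V k b, HolF n (fun y => F a y - F b y) x)
    (hb : ∀ a, ∃ C : ℝ, ∀ x ∈ D.V k a, ‖F a x‖ ≤ C) :
    ∃ z : Zc D k, ∀ a b x, x ∈ D.V k a → x ∈ D.V k b → z.1 ((a, b), x) = F a x - F b x := by
  classical
  choose C hC using hb
  have hbd : ∃ C' : ℝ, ∀ p : (D.A × D.A) × H,
      ‖(if p.2 ∈ D.S k p.1 then F p.1.1 p.2 - F p.1.2 p.2 else 0 : ℂ)‖ ≤ C' := by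
    refine ⟨2 * ∑ a, |C a|, fun p => ?_⟩
    have hs : ∀ a, |C a| ≤ ∑ a, |C a| := fun a =>
      Finset.single_le_sum (f := fun a => |C a|) (fun i _ => abs_nonneg _) (Finset.mem_univ a)
    split_ifs with h
    · refine (norm_sub_le _ _).trans ?_
      have h1 := (hC p.1.1 p.2 h.1).trans ((le_abs_self _).trans (hs _))
      have h2 := (hC p.1.2 p.2 h.2).trans ((le_abs_self _).trans (hs _))
      linarith
    · rw [norm_zero]
      exact mul_nonneg zero_le_two (Finset.sum_nonneg fun _ _ => abs_nonneg _)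
  have hz : ∀ a b x, x ∈ D.S k (a, b) →
      mkB (fun p : (D.A × D.A) × H => if p.2 ∈ D.S k p.1 then F p.1.1 p.2 - F p.1.2 p.2 else 0)
        hbd ((a, b), x) = F a x - F b x := fun a b x h => if_pos h
  refine ⟨⟨mkB _ hbd, ⟨fun p x hx => if_neg hx, fun p x hx => ?_⟩,
    fun a b d x ha hb hd => ?_⟩, fun a b x ha hb => hz a b x ⟨ha, hb⟩⟩
  · refine (hF p.1 p.2 x hx).congr ?_
    filter_upwards [(D.isOpen_S k p).mem_nhds hx] with y hy
    exact (hz _ _ y hy).symm
  · rw [hz _ _ _ ⟨ha, hb⟩, hz _ _ _ ⟨hb, hd⟩, hz _ _ _ ⟨ha, hd⟩]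
    ring

/-- cochains from functions -/
theorem exists_coch (D : Cov n H) (k : ℝ) (F : D.A → H → ℂ)
    (hF : ∀ a, ∀ x ∈ D.V k a, HolF n (F a) x)
    (hb : ∀ a, ∃ C : ℝ, ∀ x ∈ D.V k a, ‖F a x‖ ≤ C) :
    ∃ c : HB n (D.V k), ∀ a x, x ∈ D.V k a → c.1 (a, x) = F a x := by
  classical
  choose C hC using hb
  have hbd : ∃ C' : ℝ, ∀ p : D.A × H, ‖(if p.2 ∈ D.V k p.1 then F p.1 p.2 else 0 : ℂ)‖ ≤ C' := by
    refine ⟨∑ a, |C a|, fun p => ?_⟩
    have hs : ∀ a, |C a| ≤ ∑ a, |C a| := fun a =>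
      Finset.single_le_sum (f := fun a => |C a|) (fun i _ => abs_nonneg _) (Finset.mem_univ a)
    split_ifs with h
    · exact (hC p.1 p.2 h).trans ((le_abs_self _).trans (hs _))
    · rw [norm_zero]
      exact Finset.sum_nonneg fun _ _ => abs_nonneg _
  have hz : ∀ a x, x ∈ D.V k a →
      mkB (fun p : D.A × H => if p.2 ∈ D.V k p.1 then F p.1 p.2 else 0) hbd (a, x) = F a x :=
    fun a x h => if_pos h
  refine ⟨⟨mkB _ hbd, fun a x hx => if_neg hx, fun a x hx => ?_⟩, hz⟩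
  refine (hF a x hx).congr ?_
  filter_upwards [(D.isOpen k a).mem_nhds hx] with y hy
  exact (hz _ y hy).symm

section surj

variable [T2Space H] [CompactSpace H] [IsManifold 𝓘(ℂ, Cm n) ω H]

/-- every bounded holomorphic cocycle on `V 2` is a coboundary up to a cocycle on `V 3` -/
theorem surj_aux (HD : StDbar) (D : Cov n H) (z : Zc D 2) :
    ∃ (c : HB n (D.V 2)) (w : Zc D 3), ∀ p x, x ∈ D.S 2 p →
      z.1 (p, x) = (c.1 (p.1, x) - c.1 (p.2, x)) + w.1 (p, x) := by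
  obtain ⟨ρ, hρ⟩ := SmoothPartitionOfUnity.exists_isSubordinate 𝓘(ℝ, Cm n)
    (isClosed_univ (X := H)) (D.V 2) (D.isOpen 2) (fun x _ => mem_iUnion.2
      (D.exists_mem (by norm_num) x))
  have hsum : ∀ x, ∑ b, ρ b x = 1 := fun x => by
    have := ρ.sum_eq_one (mem_univ x)
    rwa [finsum_eq_sum_of_fintype] at this
  have hsm : ∀ b x, SmR n (ρ b) x := fun b x => smR_of_contMDiffAt ((ρ b).contMDiff x)
  have hz0 : ∀ b x, x ∉ tsupport (ρ b) → ∀ᶠ y in 𝓝 x, ρ b y = 0 := fun b x hx => by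
    have := (isClosed_tsupport (ρ b)).isOpen_compl.mem_nhds hx
    filter_upwards [this] with y hy
    exact image_eq_zero_of_notMem_tsupport hy
  let g : D.A → H → ℂ := fun a x => ∑ b, (ρ b x : ℂ) * z.1 ((a, b), x)
  have hg : ∀ a, ∀ x ∈ D.V 2 a, SmF n (g a) x := by
    intro a x hx
    refine SmF.sum fun b _ => ?_
    by_cases hb : x ∈ tsupport (ρ b)
    · exact (hsm b x).ofReal.mul (z.2.1.2 (a, b) x ⟨hx, hρ b hb⟩).smF
    · refine (SmF.const 0).congr ((hz0 b x hb).mono fun y hy => ?_)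
      rw [hy, Complex.ofReal_zero, zero_mul]
  have hgd : ∀ a b x, x ∈ D.S 2 (a, b) → g a x - g b x = z.1 ((a, b), x) := by
    intro a b x hx
    show ∑ d, (ρ d x : ℂ) * z.1 ((a, d), x) - ∑ d, (ρ d x : ℂ) * z.1 ((b, d), x) = _
    rw [← Finset.sum_sub_distrib]
    have h1 : ∀ d, (ρ d x : ℂ) * z.1 ((a, d), x) - (ρ d x : ℂ) * z.1 ((b, d), x) =
        (ρ d x : ℂ) * z.1 ((a, b), x) := by
      intro d
      by_cases hd : x ∈ D.V 2 d
      · rw [← z.2.2 a b d x hx.1 hx.2 hd]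
        ring
      · have : ρ d x = 0 := image_eq_zero_of_notMem_tsupport fun h => hd (hρ d h)
        rw [this]
        simp
    rw [Finset.sum_congr rfl fun d _ => h1 d, ← Finset.sum_mul, ← Complex.ofReal_sum, hsum,
      Complex.ofReal_one, one_mul]
  have hgh : ∀ a b, ∀ x ∈ D.V 2 a ∩ D.V 2 b, HolF n (fun y => g a y - g b y) x := by
    intro a b x hx
    refine (z.2.1.2 (a, b) x hx).congr ?_
    filter_upwards [(D.isOpen_S 2 (a, b)).mem_nhds hx] with y hy
    exact (hgd a b y hy).symm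
  obtain ⟨F, hF, hFg, hFb⟩ := dbar_cov HD D (D.isOpen 2) (D.exists_mem (by norm_num)) hg hgh
  have hFF : ∀ a b, ∀ x ∈ D.V 3 a ∩ D.V 3 b, HolF n (fun y => F a y - F b y) x := by
    intro a b x hx
    obtain ⟨d, hd⟩ := D.exists_mem (k := 2) (by norm_num) x
    refine ((hFg a d x ⟨D.mono (by norm_num) a hx.1, hd⟩).sub
      (hFg b d x ⟨D.mono (by norm_num) b hx.2, hd⟩)).congr (Eventually.of_forall fun y => ?_)
    ring
  obtain ⟨w, hw⟩ := exists_coc D 3 F hFF hFb
  have hgb : ∀ a, ∃ C : ℝ, ∀ x ∈ D.V 2 a, ‖g a x - F a x‖ ≤ C := by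
    intro a
    obtain ⟨C, hC⟩ := hFb a
    refine ⟨(∑ _b : D.A, ‖z.1‖) + C, fun x hx => ?_⟩
    refine (norm_sub_le _ _).trans (add_le_add ?_ (hC x (D.mono (by norm_num) a hx)))
    refine (norm_sum_le _ _).trans (Finset.sum_le_sum fun b _ => ?_)
    rw [norm_mul, Complex.norm_real]
    have h1 : ‖ρ b x‖ ≤ 1 := by
      rw [Real.norm_eq_abs, abs_of_nonneg (ρ.nonneg b x)]
      exact ρ.le_one b x
    have h2 := BD.le z.1 ((a, b), x)
    calc ‖ρ b x‖ * ‖z.1 ((a, b), x)‖ ≤ 1 * ‖z.1‖ :=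
          mul_le_mul h1 h2 (norm_nonneg _) zero_le_one
      _ = ‖z.1‖ := one_mul _
  obtain ⟨c, hc⟩ := exists_coch D 2 (fun a y => g a y - F a y) (fun a x hx => by
    refine ((hFg a a x ⟨D.mono (by norm_num) a hx, hx⟩).neg).congr
      (Eventually.of_forall fun y => ?_)
    ring) hgb
  refine ⟨c, w, fun p x hx => ?_⟩
  rw [hc p.1 x hx.1, hc p.2 x hx.2, ← hgd p.1 p.2 x hx]
  rw [show w.1 (p, x) = F p.1 x - F p.2 x from
    hw p.1 p.2 x (D.mono (by norm_num) _ hx.1) (D.mono (by norm_num) _ hx.2)]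
  ring

/-- the cokernel of the coboundary is finite dimensional -/
theorem fin_coker (HD : StDbar) (HS : StSchwartz) (HC : StHBc) (HM : StMontel) (D : Cov n H) :
    FiniteDimensional ℝ (Zc D 2 ⧸ (dlL D).range) := by
  have hA : Finite (D.A × D.A) := inferInstance
  obtain ⟨R, hR, hRc⟩ := HM n H (D.A × D.A) (D.S 3) (D.S 2) (D.isOpen_S 3) (D.isOpen_S 2)
    (fun p => ⟨D.K 2 p.1 ∩ D.K 2 p.2,
      (D.isCompact_K (by norm_num) _).inter (D.isCompact_K (by norm_num) _),
      inter_subset_inter (D.V_sub_K 2 _) (D.V_sub_K 2 _),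
      inter_subset_inter (D.K_sub_V (by norm_num) (by norm_num) _)
        (D.K_sub_V (by norm_num) (by norm_num) _)⟩)
  have c0 : CompleteSpace (HB n (D.V 2)) :=
    (HC n H D.A (D.V 2) (D.isOpen 2)).completeSpace_coe
  have c3 : CompleteSpace (Zc D 3) := (isClosed_Zc HC D 3).completeSpace_coe
  have c2 : CompleteSpace (Zc D 2) := (isClosed_Zc HC D 2).completeSpace_coe
  let inc : Zc D 3 →L[ℝ] HB n (D.S 3) :=
    (Zc D 3).subtypeL.codRestrict (HB n (D.S 3)) fun f => f.2.1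
  let R' : Zc D 3 →L[ℝ] BD ((D.A × D.A) × H) := (HB n (D.S 2)).subtypeL ∘L R ∘L inc
  have hR' : ∀ f p x, x ∈ D.S 2 p → (R' f) (p, x) = f.1 (p, x) := fun f p x hx => hR (inc f) p x hx
  have hR0 : ∀ f p x, x ∉ D.S 2 p → (R' f) (p, x) = 0 := fun f p x hx => (R (inc f)).2.1 p x hx
  have hRm : ∀ f, R' f ∈ Zc D 2 := by
    intro f
    refine ⟨(R (inc f)).2, fun a b d x ha hb hd => ?_⟩
    rw [hR' f (a, b) x ⟨ha, hb⟩, hR' f (b, d) x ⟨hb, hd⟩, hR' f (a, d) x ⟨ha, hd⟩]
    exact f.2.2 a b d x (D.mono (by norm_num) _ ha) (D.mono (by norm_num) _ hb)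
      (D.mono (by norm_num) _ hd)
  have hR'c : IsCompactOperator R' := (hRc.comp_clm inc).clm_comp (HB n (D.S 2)).subtypeL
  let R2 : Zc D 3 →L[ℝ] Zc D 2 := R'.codRestrict (Zc D 2) hRm
  have hR2c : IsCompactOperator R2 := hR'c.codRestrict hRm (isClosed_Zc HC D 2)
  let u : (HB n (D.V 2) × Zc D 3) →L[ℝ] Zc D 2 :=
    dlL D ∘L ContinuousLinearMap.fst ℝ _ _ + R2 ∘L ContinuousLinearMap.snd ℝ _ _
  let v : (HB n (D.V 2) × Zc D 3) →L[ℝ] Zc D 2 := -(R2 ∘L ContinuousLinearMap.snd ℝ _ _)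
  have hu : Function.Surjective u := by
    intro z
    obtain ⟨c, w, h⟩ := surj_aux HD D z
    refine ⟨(c, w), Subtype.ext (BoundedContinuousFunction.ext fun q => ?_)⟩
    obtain ⟨p, x⟩ := q
    show dl D c.1 (p, x) + R' w (p, x) = z.1 (p, x)
    by_cases hx : x ∈ D.S 2 p
    · rw [h p x hx, hR' w p x hx]
      have := dl_of (c := c.1) (a := p.1) (b := p.2) hx
      rw [← this]
    · rw [dl_of_not hx, hR0 w p x hx, z.2.1.1 p x hx, add_zero]
  have hv : IsCompactOperator v := (hR2c.comp_clm (ContinuousLinearMap.snd ℝ _ _)).neg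
  have h := HS _ _ u v hu hv
  have hr : (u + v).range = (dlL D).range := by
    have h1 : u + v = dlL D ∘L ContinuousLinearMap.fst ℝ _ _ := by
      refine ContinuousLinearMap.ext fun q => ?_
      show (dlL D q.1 + R2 q.2) + -(R2 q.2) = dlL D q.1
      rw [add_neg_cancel_right]
    rw [h1]
    ext y
    constructor
    · rintro ⟨q, hq⟩
      exact ⟨q.1, hq⟩
    · rintro ⟨q, hq⟩
      exact ⟨(q, 0), hq⟩
  rw [hr] at h
  exact h

end surj

theorem stFinO_of (HD : StDbar) (HS : StSchwartz) (HC : StHBc) (HM : StMontel) : StFinO := by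
  intro n H _ _ _ _ _
  obtain ⟨D⟩ := exists_cov (n := n) (H := H)
  have hfin := fin_coker HD HS HC HM D
  refine ⟨Module.finrank ℝ (Zc D 2 ⧸ (dlL D).range), fun N hN ι U g hU hc hg hd => ?_⟩
  have h1 := fun k => dbar_cov HD D (hU k) (hc k) (hg k) (hd k)
  choose F hF hFg hFb using h1
  have hFF : ∀ k a b, ∀ x ∈ D.V 2 a ∩ D.V 2 b, HolF n (fun y => F k a y - F k b y) x := by
    intro k a b x hx
    obtain ⟨i, hi⟩ := hc k x
    refine ((hFg k a i x ⟨D.mono (by norm_num) a hx.1, hi⟩).sub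
      (hFg k b i x ⟨D.mono (by norm_num) b hx.2, hi⟩)).congr (Eventually.of_forall fun y => ?_)
    ring
  have h2 := fun k => exists_coc D 2 (F k) (hFF k) (fun a => by
    obtain ⟨C, hC⟩ := hFb k a
    exact ⟨C, fun x hx => hC x (D.mono (by norm_num) a hx)⟩)
  choose z hz using h2
  have hdep : ¬ LinearIndependent ℝ fun k => (dlL D).range.mkQ (z k) := by
    intro h
    have := h.fintype_card_le_finrank
    rw [Fintype.card_fin] at this
    omega
  obtain ⟨t, ht, k₀, hk₀⟩ := Fintype.not_linearIndependent_iff.1 hdep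
  have h3 : ∑ k, t k • z k ∈ (dlL D).range := by
    rw [← Submodule.Quotient.mk_eq_zero, ← Submodule.mkQ_apply, map_sum]
    simpa using ht
  obtain ⟨c, hc'⟩ := h3
  have h4 : ∀ a b x, x ∈ D.V 2 a → x ∈ D.V 2 b →
      c.1 (a, x) - c.1 (b, x) = ∑ k, t k * (F k a x - F k b x) := by
    intro a b x ha hb
    have h5 : (dlL D c).1 ((a, b), x) = (∑ k, t k • z k : Zc D 2).1 ((a, b), x) := by
      rw [← hc']
      rfl
    rw [dlL_apply, dl_of ⟨ha, hb⟩] at h5
    rw [h5]
    let ev : Zc D 2 →ₗ[ℝ] ℂ :=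
      { toFun := fun z => z.1 ((a, b), x), map_add' := fun _ _ => rfl, map_smul' := fun _ _ => rfl }
    have h6 : (∑ k, t k • z k : Zc D 2).1 ((a, b), x) = ∑ k, t k • (z k).1 ((a, b), x) := by
      have : ev (∑ k, t k • z k) = ∑ k, t k • ev (z k) := by
        rw [map_sum]
        exact Finset.sum_congr rfl fun k _ => map_smul ev _ _
      exact this
    rw [h6]
    refine Finset.sum_congr rfl fun k _ => ?_
    rw [hz k a b x ha hb, Complex.real_smul]
  choose a ha using D.exists_mem (k := 2) (by norm_num)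
  let φ : H → ℂ := fun x => c.1 (a x, x) - ∑ k, t k * F k (a x) x
  have hφ : ∀ b, ∀ x ∈ D.V 2 b, φ x = c.1 (b, x) - ∑ k, t k * F k b x := by
    intro b x hx
    have h5 := h4 (a x) b x (ha x) hx
    simp only [mul_sub, Finset.sum_sub_distrib] at h5
    show c.1 (a x, x) - ∑ k, t k * F k (a x) x = _
    linear_combination h5
  have hφ' : ∀ b, ∀ x ∈ D.V 2 b, ∀ᶠ y in 𝓝 x, φ y = c.1 (b, y) - ∑ k, t k * F k b y :=
    fun b x hx => by
      filter_upwards [(D.isOpen 2 b).mem_nhds hx] with y hy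
      exact hφ b y hy
  refine ⟨t, φ, fun h => hk₀ (by rw [h]; rfl), fun x => ?_, fun i x hx => ?_⟩
  · refine SmF.congr ?_ ((hφ' (a x) x (ha x)).mono fun y hy => hy.symm)
    refine (c.2.2 (a x) x (ha x)).smF.sub (SmF.sum fun k _ => ?_)
    exact (hF k (a x) x (D.mono (by norm_num) _ (ha x))).const_mul _
  · have h5 : HolF n (fun y => c.1 (a x, y) - ∑ k, t k * (F k (a x) y - g k (i k) y)) x := by
      refine (c.2.2 (a x) x (ha x)).sub (HolF.sum fun k _ => ?_)
      exact (hFg k (a x) (i k) x ⟨D.mono (by norm_num) _ (ha x), hx k⟩).const_mul _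
    refine h5.congr ?_
    filter_upwards [hφ' (a x) x (ha x)] with y hy
    rw [hy]
    simp only [mul_sub, Finset.sum_sub_distrib]
    ring

end Vale.Agent.P277.PH
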