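import Vale.Agent.P277.H29.PH.Fin
import Vale.Agent.P277.H29.PH.FinO
import Vale.Agent.P277.H60.L.StDbar
import Vale.Agent.P277.H60.L.Schwartz
import Vale.Agent.P277.H60.L.HB
import Vale.Agent.P277.H285.E3

/-!
# P277, P1: the theorem
-/

namespace Vale.Agent.P277.PH

/-- finiteness of `H^1(H, O)` -/
theorem stFinO : StFinO := stFinO_of H60.L.stDbar H60.L.stSchwartz H60.L.stHBc H60.L.stMontel

/-- (P1) -/
theorem stPH : StPH := stPH_of stFinO stE

end Vale.Agent.P277.PH
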