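import Vale.Agent.P277.H29.PH.Defs
import Vale.Agent.P277.H29.M1

/-!
# P277, P1: holomorphic, smooth and pluriharmonic functions on complex manifolds
-/

set_option linter.unusedSectionVars false

open scoped Manifold ContDiff Topology
open Vale.Agent.P272.K Vale.Agent.P285.H281.FD Vale.Agent.P267.H175 Set Metric Filter

noncomputable section

namespace Vale.Agent.P277.PH

variable {n : ℕ} {H : Type} [TopologicalSpace H] [ChartedSpace (Cm n) H]

theorem at_chartAt (x : H) : At (chartAt (Cm n) x) x :=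
  ⟨chart_mem_atlas (Cm n) x, mem_chart_source (Cm n) x⟩

theorem ev_symm {e : Chart n H} {x : H} (he : x ∈ e.source) {P : H → Prop}
    (h : ∀ᶠ y in 𝓝 x, P y) : ∀ᶠ z in 𝓝 (e x), P (e.symm z) := by
  have h1 : Tendsto e.symm (𝓝 (e x)) (𝓝 x) := by
    have := e.continuousAt_symm (e.map_source he)
    rwa [ContinuousAt, e.left_inv he] at this
  exact h1.eventually h

section alg

variable {g g' : H → ℂ} {u u' : H → ℝ} {x : H}

theorem HolF.congr (h : HolF n g x) (he : ∀ᶠ y in 𝓝 x, g y = g' y) : HolF n g' x :=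
  fun e hex => (h e hex).congr (ev_symm hex.2 he)

theorem HolF.add (h : HolF n g x) (h' : HolF n g' x) : HolF n (fun y => g y + g' y) x :=
  fun e he => (h e he).add (h' e he)

theorem HolF.sub (h : HolF n g x) (h' : HolF n g' x) : HolF n (fun y => g y - g' y) x :=
  fun e he => (h e he).sub (h' e he)

theorem HolF.neg (h : HolF n g x) : HolF n (fun y => - g y) x :=
  fun e he => (h e he).neg

theorem HolF.mul (h : HolF n g x) (h' : HolF n g' x) : HolF n (fun y => g y * g' y) x :=
  fun e he => (h e he).mul (h' e he)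

theorem HolF.const (c : ℂ) : HolF n (fun _ : H => c) x := fun _ _ => analyticAt_const

theorem HolF.const_mul (c : ℂ) (h : HolF n g x) : HolF n (fun y => c * g y) x :=
  (HolF.const c).mul h

theorem HolF.sum {ι : Type*} {s : Finset ι} {f : ι → H → ℂ} (h : ∀ i ∈ s, HolF n (f i) x) :
    HolF n (fun y => ∑ i ∈ s, f i y) x := fun e he => by
  exact Finset.analyticAt_fun_sum s (f := fun i z => f i (e.symm z)) (c := e x) (𝕜 := ℂ)
    fun i hi => h i hi e he

theorem SmF.congr (h : SmF n g x) (he : ∀ᶠ y in 𝓝 x, g y = g' y) : SmF n g' x :=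
  fun e hex => (h e hex).congr_of_eventuallyEq (ev_symm hex.2 (he.mono fun _ h => h.symm))

theorem SmF.add (h : SmF n g x) (h' : SmF n g' x) : SmF n (fun y => g y + g' y) x :=
  fun e he => (h e he).add (h' e he)

theorem SmF.sub (h : SmF n g x) (h' : SmF n g' x) : SmF n (fun y => g y - g' y) x :=
  fun e he => (h e he).sub (h' e he)

theorem SmF.neg (h : SmF n g x) : SmF n (fun y => - g y) x :=
  fun e he => (h e he).neg

theorem SmF.mul (h : SmF n g x) (h' : SmF n g' x) : SmF n (fun y => g y * g' y) x :=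
  fun e he => (h e he).mul (h' e he)

theorem SmF.const (c : ℂ) : SmF n (fun _ : H => c) x := fun _ _ => contDiffAt_const

theorem SmF.const_mul (c : ℂ) (h : SmF n g x) : SmF n (fun y => c * g y) x :=
  (SmF.const c).mul h

theorem SmF.sum {ι : Type*} {s : Finset ι} {f : ι → H → ℂ} (h : ∀ i ∈ s, SmF n (f i) x) :
    SmF n (fun y => ∑ i ∈ s, f i y) x := fun e he =>
  ContDiffAt.sum fun i hi => h i hi e he

theorem SmR.congr (h : SmR n u x) (he : ∀ᶠ y in 𝓝 x, u y = u' y) : SmR n u' x :=
  fun e hex => (h e hex).congr_of_eventuallyEq (ev_symm hex.2 (he.mono fun _ h => h.symm))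

theorem SmR.add (h : SmR n u x) (h' : SmR n u' x) : SmR n (fun y => u y + u' y) x :=
  fun e he => (h e he).add (h' e he)

theorem SmR.sub (h : SmR n u x) (h' : SmR n u' x) : SmR n (fun y => u y - u' y) x :=
  fun e he => (h e he).sub (h' e he)

theorem SmR.neg (h : SmR n u x) : SmR n (fun y => - u y) x :=
  fun e he => (h e he).neg

theorem SmR.mul (h : SmR n u x) (h' : SmR n u' x) : SmR n (fun y => u y * u' y) x :=
  fun e he => (h e he).mul (h' e he)

theorem SmR.const (c : ℝ) : SmR n (fun _ : H => c) x := fun _ _ => contDiffAt_const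

theorem SmR.const_mul (c : ℝ) (h : SmR n u x) : SmR n (fun y => c * u y) x :=
  (SmR.const c).mul h

theorem SmR.sum {ι : Type*} {s : Finset ι} {f : ι → H → ℝ} (h : ∀ i ∈ s, SmR n (f i) x) :
    SmR n (fun y => ∑ i ∈ s, f i y) x := fun e he =>
  ContDiffAt.sum fun i hi => h i hi e he

theorem HolF.smF (h : HolF n g x) : SmF n g x := fun e he =>
  ((h e he).contDiffAt (n := ∞)).restrict_scalars ℝ

theorem SmF.re (h : SmF n g x) : SmR n (fun y => (g y).re) x := fun e he =>
  Complex.reCLM.contDiff.contDiffAt.comp (e x) (h e he)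

theorem SmF.im (h : SmF n g x) : SmR n (fun y => (g y).im) x := fun e he =>
  Complex.imCLM.contDiff.contDiffAt.comp (e x) (h e he)

theorem SmR.ofReal (h : SmR n u x) : SmF n (fun y => (u y : ℂ)) x := fun e he =>
  Complex.ofRealCLM.contDiff.contDiffAt.comp (e x) (h e he)

theorem PHAt.smR (h : PHAt n u x) : SmR n u x := by
  obtain ⟨g, hg, he⟩ := h
  exact hg.smF.re.congr (he.mono fun _ h => h.symm)

theorem PHAt.congr (h : PHAt n u x) (he : ∀ᶠ y in 𝓝 x, u y = u' y) : PHAt n u' x := by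
  obtain ⟨g, hg, h1⟩ := h
  refine ⟨g, hg, ?_⟩
  filter_upwards [h1, he] with y h1 h2
  rw [← h2, h1]

theorem PHAt.add (h : PHAt n u x) (h' : PHAt n u' x) : PHAt n (fun y => u y + u' y) x := by
  obtain ⟨g, hg, h1⟩ := h
  obtain ⟨g', hg', h1'⟩ := h'
  refine ⟨fun y => g y + g' y, hg.add hg', ?_⟩
  filter_upwards [h1, h1'] with y h1 h2
  rw [h1, h2, Complex.add_re]

theorem PHAt.const_mul (c : ℝ) (h : PHAt n u x) : PHAt n (fun y => c * u y) x := by
  obtain ⟨g, hg, h1⟩ := h
  refine ⟨fun y => (c : ℂ) * g y, hg.const_mul _, ?_⟩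
  filter_upwards [h1] with y h1
  rw [h1, Complex.re_ofReal_mul]

theorem HolF.phRe (h : HolF n g x) : PHAt n (fun y => (g y).re) x :=
  ⟨g, h, Eventually.of_forall fun _ => rfl⟩

theorem HolF.phIm (h : HolF n g x) : PHAt n (fun y => (g y).im) x := by
  refine ⟨fun y => (-Complex.I) * g y, h.const_mul _, Eventually.of_forall fun y => ?_⟩
  simp [Complex.mul_re]

end alg

section mfd

variable [IsManifold 𝓘(ℂ, Cm n) ω H] {g : H → ℂ} {u : H → ℝ} {x : H}

theorem symm_factor {β : Type*} {e e' : Chart n H} (he : At e x) (he' : At e' x) (g : H → β) :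
    (fun z => g (e'.symm z)) =ᶠ[𝓝 (e' x)] (fun z => g (e.symm z)) ∘ (fun z => e (e'.symm z)) := by
  filter_upwards [ev_symm he'.2 (e.open_source.mem_nhds he.2)] with z hz
  simp only [Function.comp]
  rw [e.left_inv hz]

theorem chg_analyticAt {e e' : Chart n H} (he : At e x) (he' : At e' x) :
    AnalyticAt ℂ (fun z => e (e'.symm z)) (e' x) := by
  have h := Vale.Agent.P267.H928.Int.chg_contDiffAt_complex (E := Cm n) he'.1 he.1
    (e'.map_source he'.2) (by rw [e'.left_inv he'.2]; exact he.2)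
  exact h.analyticAt

theorem holF_of {e : Chart n H} (he : At e x)
    (h : AnalyticAt ℂ (fun z => g (e.symm z)) (e x)) : HolF n g x := by
  intro e' he'
  refine (AnalyticAt.fun_comp (g := fun z => g (e.symm z)) (f := fun z => e (e'.symm z)) ?_
    (chg_analyticAt he he')).congr (symm_factor he he' g).symm
  rw [e'.left_inv he'.2]
  exact h

theorem chg_smooth {e e' : Chart n H} (he : At e x) (he' : At e' x) :
    ContDiffAt ℝ ∞ (fun z => e (e'.symm z)) (e' x) := by
  have h := (chg_analyticAt he he').contDiffAt (n := ∞)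
  exact h.restrict_scalars ℝ

theorem smooth_of {F : Type*} [NormedAddCommGroup F] [NormedSpace ℝ F] {g : H → F}
    {e : Chart n H} (he : At e x) (h : ContDiffAt ℝ ∞ (fun z => g (e.symm z)) (e x))
    {e' : Chart n H} (he' : At e' x) : ContDiffAt ℝ ∞ (fun z => g (e'.symm z)) (e' x) := by
  refine ContDiffAt.congr_of_eventuallyEq ?_ (symm_factor he he' g)
  refine ContDiffAt.comp (e' x) (g := fun z => g (e.symm z)) ?_ (chg_smooth he he')
  rw [e'.left_inv he'.2]
  exact h

theorem smF_of {e : Chart n H} (he : At e x)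
    (h : ContDiffAt ℝ ∞ (fun z => g (e.symm z)) (e x)) : SmF n g x :=
  fun _ he' => smooth_of he h he'

theorem smR_of {e : Chart n H} (he : At e x)
    (h : ContDiffAt ℝ ∞ (fun z => u (e.symm z)) (e x)) : SmR n u x :=
  fun _ he' => smooth_of he h he'

instance instRealMfd : IsManifold 𝓘(ℝ, Cm n) ∞ H :=
  Vale.Agent.P267.H928.Int.isManifold_real

theorem smR_of_contMDiffAt (h : ContMDiffAt 𝓘(ℝ, Cm n) 𝓘(ℝ, ℝ) ∞ u x) : SmR n u x := by
  intro e he
  have h1 : ContMDiffAt 𝓘(ℝ, Cm n) 𝓘(ℝ, Cm n) ∞ e.symm (e x) :=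
    contMDiffAt_symm_of_mem_maximalAtlas
      (IsManifold.subset_maximalAtlas he.1) (e.map_source he.2)
  have h2 : ContMDiffAt 𝓘(ℝ, Cm n) 𝓘(ℝ, ℝ) ∞ (u ∘ e.symm) (e x) := by
    refine ContMDiffAt.comp (e x) ?_ h1
    rw [e.left_inv he.2]
    exact h
  exact contMDiffAt_iff_contDiffAt.1 h2

end mfd

end Vale.Agent.P277.PH
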