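import Vale.Agent.P277.H29.PH.Basic

/-!
# P277, P1: the operator `d^c` and primitives
-/

set_option linter.unusedSectionVars false

open scoped Manifold ContDiff Topology
open Vale.Agent.P272.K Vale.Agent.P285.H281.FD Vale.Agent.P267.H175 Set Metric Filter

noncomputable section

namespace Vale.Agent.P277.PH

section lin

variable {E : Type*} [NormedAddCommGroup E] [NormedSpace ℝ E]
variable {X : Type*} [TopologicalSpace X] [ChartedSpace E X]

theorem smAt_lsum {k : ℕ} {ι : Type*} (s : Finset ι) (c : ι → ℝ) (a : ι → X → E [⋀^Fin k]→L[ℝ] ℝ)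
    {y : X} (ha : ∀ i, SmAt (a i) y) : SmAt (fun x => ∑ i ∈ s, c i • a i x) y := by
  classical
  induction s using Finset.induction_on with
  | empty =>
    simp only [Finset.sum_empty]
    exact smAt_zero y
  | insert i s hi ih =>
    simp only [Finset.sum_insert hi]
    exact ((ha i).smul (c i)).add ih

theorem dF_lsum {k : ℕ} {ι : Type*} (s : Finset ι) (c : ι → ℝ) (a : ι → X → E [⋀^Fin k]→L[ℝ] ℝ)
    {y : X} (ha : ∀ i, SmAt (a i) y) :
    dF (fun x => ∑ i ∈ s, c i • a i x) y = ∑ i ∈ s, c i • dF (a i) y := by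
  classical
  induction s using Finset.induction_on with
  | empty =>
    simp only [Finset.sum_empty]
    have h := dF_smul (0 : ℝ) (0 : X → E [⋀^Fin k]→L[ℝ] ℝ) y
    rw [zero_smul, zero_smul] at h
    exact h
  | insert i s hi ih =>
    simp only [Finset.sum_insert hi]
    rw [← ih, ← dF_smul]
    exact dF_add ((ha i).smul (c i)) (smAt_lsum s c a ha)

theorem SmAt.sub' {k : ℕ} {a b : X → E [⋀^Fin k]→L[ℝ] ℝ} {x : X} (ha : SmAt a x) (hb : SmAt b x) :
    SmAt (fun y => a y - b y) x := by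
  have h := ha.add (hb.smul (-1 : ℝ))
  refine h.congr (Eventually.of_forall fun y => ?_)
  ext w
  show a y w - b y w = a y w + (-1 : ℝ) * b y w
  ring

theorem dF_sub {k : ℕ} {a b : X → E [⋀^Fin k]→L[ℝ] ℝ} {x : X} (ha : SmAt a x) (hb : SmAt b x) :
    dF (fun y => a y - b y) x = dF a x - dF b x := by
  have h := dF_add ha (hb.smul (-1 : ℝ))
  rw [dF_smul] at h
  have h1 : dF (fun y => a y - b y) x = dF (a + (-1 : ℝ) • b) x := by
    refine dF_congr (Eventually.of_forall fun y => ?_)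
    ext w
    show a y w - b y w = a y w + (-1 : ℝ) * b y w
    ring
  rw [h1, h]
  ext w
  show dF a x w + (-1 : ℝ) * dF b x w = dF a x w - dF b x w
  ring

end lin

variable {n : ℕ} {H : Type} [TopologicalSpace H] [ChartedSpace (Cm n) H]

/-- `0`-forms -/
def zf (u : H → ℝ) (x : H) : Cm n [⋀^Fin 0]→L[ℝ] ℝ :=
  ContinuousAlternatingMap.constOfIsEmpty ℝ (Cm n) (Fin 0) (u x)

/-- multiplication by `i` -/
def JL (n : ℕ) : Cm n →L[ℝ] Cm n :=
  (Complex.I • ContinuousLinearMap.id ℂ (Cm n)).restrictScalars ℝ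

theorem JL_apply (w : Cm n) : JL n w = Complex.I • w := rfl

/-- `d^c u` -/
def dc (u : H → ℝ) (x : H) : Cm n [⋀^Fin 1]→L[ℝ] ℝ :=
  -(dF (zf u) x).compContinuousLinearMap (JL n)

theorem loc_zf (u : H → ℝ) (e : Chart n H) :
    loc e (zf u) = fun z => ContinuousAlternatingMap.constOfIsEmpty ℝ (Cm n) (Fin 0) (u (e.symm z)) :=
  rfl

theorem extDeriv_zf (u : H → ℝ) (e : Chart n H) (z : Cm n) (w : Fin 1 → Cm n) :
    extDeriv (loc e (zf u)) z w = fderiv ℝ (fun z => u (e.symm z)) z (w 0) := by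
  rw [loc_zf, extDeriv_constOfIsEmpty]
  rfl

theorem smAt_zf {u : H → ℝ} {x : H} (h : SmR n u x) : SmAt (zf (n := n) u) x := by
  have h1 := h (chartAt (Cm n) x) (at_chartAt x)
  exact (ContinuousAlternatingMap.constOfIsEmptyLIE ℝ (Cm n) ℝ (Fin 0)).contDiff.contDiffAt.comp
    (chartAt (Cm n) x x) h1

/-- `0`-forms are functions -/
theorem exists_zf (b : H → Cm n [⋀^Fin 0]→L[ℝ] ℝ) : ∃ v : H → ℝ, b = zf v := by
  refine ⟨fun x => b x 0, funext fun x => ?_⟩
  ext w
  show b x w = b x 0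
  congr 1
  exact Subsingleton.elim _ _

section mfd

variable [IsManifold 𝓘(ℂ, Cm n) ω H]

theorem smR_of_smAt {u : H → ℝ} {x : H} (h : SmAt (zf (n := n) u) x) : SmR n u x := by
  refine smR_of (at_chartAt x) ?_
  exact (ContinuousAlternatingMap.constOfIsEmptyLIE ℝ (Cm n) ℝ (Fin 0)).symm.contDiff.contDiffAt.comp
    (chartAt (Cm n) x x) h

/-- the differential of a change of charts commutes with multiplication by `i` -/
theorem JL_comm {e e' : Chart n H} {x : H} (he : At e x) (he' : At e' x) :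
    (fderiv ℝ (fun z => e (e'.symm z)) (e' x)).comp (JL n) =
      (JL n).comp (fderiv ℝ (fun z => e (e'.symm z)) (e' x)) := by
  have h := (chg_analyticAt he he').differentiableAt
  rw [h.fderiv_restrictScalars ℝ]
  ext w : 1
  show fderiv ℂ (fun z => e (e'.symm z)) (e' x) (Complex.I • w) =
    Complex.I • fderiv ℂ (fun z => e (e'.symm z)) (e' x) w
  rw [map_smul]

theorem loc_dc {u : H → ℝ} {x : H} (hu : SmR n u x) {e : Chart n H} (he : At e x) :
    loc e (dc u) (e x) = -(extDeriv (loc e (zf u)) (e x)).compContinuousLinearMap (JL n) := by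
  have h1 : e.symm (e x) = x := e.left_inv he.2
  have h2 := loc_dF he.1 (e.map_source he.2) (a := zf (n := n) u)
    (by rw [h1]; exact smAt_zf hu)
  rw [← h2]
  have h3 := JL_comm (at_chartAt x) he
  rw [loc, loc, h1]
  ext w
  show -(dF (zf u) x) (fun i => JL n (fderiv ℝ (fun y => chartAt (Cm n) x (e.symm y)) (e x) (w i))) =
    -(dF (zf u) x) (fun i => (fderiv ℝ (fun y => chartAt (Cm n) x (e.symm y)) (e x)) (JL n (w i)))
  congr 2
  funext i
  exact (DFunLike.congr_fun h3 (w i)).symm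

theorem smAt_dc {u : H → ℝ} {V : Set H} (hV : IsOpen V) (hu : ∀ x ∈ V, SmR n u x) {x : H}
    (hx : x ∈ V) : SmAt (dc (n := n) u) x := by
  have he := at_chartAt (n := n) x
  set e := chartAt (Cm n) x
  have h1 : e.symm (e x) = x := e.left_inv he.2
  have h2 : loc e (dc u) =ᶠ[𝓝 (e x)]
      fun z => -(extDeriv (loc e (zf u)) z).compContinuousLinearMap (JL n) := by
    filter_upwards [(e.symm.isOpen_inter_preimage hV).mem_nhds
      ⟨e.map_source he.2, by rw [mem_preimage, h1]; exact hx⟩] with z hz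
    have h3 : At e (e.symm z) := ⟨he.1, e.map_target hz.1⟩
    have h4 := loc_dc (hu _ hz.2) h3
    rwa [e.right_inv hz.1] at h4
  refine ContDiffAt.congr_of_eventuallyEq ?_ h2
  refine ContDiffAt.neg ?_
  exact (ContinuousAlternatingMap.compContinuousLinearMapCLM (JL n)).contDiff.contDiffAt.comp (e x)
    (contDiffAt_extDeriv (smAt_zf (hu x hx)))

theorem dF_zf_apply (u : H → ℝ) (x : H) (w : Fin 1 → Cm n) :
    dF (zf (n := n) u) x w =
      fderiv ℝ (fun z => u ((chartAt (Cm n) x).symm z)) (chartAt (Cm n) x x) (w 0) :=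
  extDeriv_zf u (chartAt (Cm n) x) (chartAt (Cm n) x x) w

theorem dc_apply (u : H → ℝ) (x : H) (w : Fin 1 → Cm n) :
    dc (n := n) u x w =
      -fderiv ℝ (fun z => u ((chartAt (Cm n) x).symm z)) (chartAt (Cm n) x x)
        (Complex.I • w 0) := by
  show -(dF (zf (n := n) u) x (fun i => JL n (w i))) = _
  rw [dF_zf_apply]
  rfl

theorem dc_congr {u u' : H → ℝ} {x : H} (h : ∀ᶠ y in 𝓝 x, u y = u' y) :
    dc (n := n) u x = dc u' x := by
  have h1 : zf (n := n) u =ᶠ[𝓝 x] zf u' := by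
    filter_upwards [h] with y hy
    rw [zf, hy, zf]
  rw [dc, dc, dF_congr h1]

theorem dc_sub {u u' : H → ℝ} {x : H} (hu : SmR n u x) (hu' : SmR n u' x) :
    dc (n := n) (fun y => u y - u' y) x = dc u x - dc u' x := by
  ext w
  show dc (n := n) (fun y => u y - u' y) x w = dc u x w - dc u' x w
  have h1 := (hu _ (at_chartAt x)).differentiableAt (by simp)
  have h2 := (hu' _ (at_chartAt x)).differentiableAt (by simp)
  rw [dc_apply, dc_apply, dc_apply, fderiv_fun_sub h1 h2, ContinuousLinearMap.sub_apply]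
  ring

/-- `d^c Re h = d Im h` -/
theorem dc_re {h : H → ℂ} {x : H} (hh : HolF n h x) :
    dc (n := n) (fun y => (h y).re) x = dF (zf fun y => (h y).im) x := by
  ext w
  rw [dc_apply, dF_zf_apply]
  have h1 := (hh _ (at_chartAt x)).differentiableAt
  set e := chartAt (Cm n) x
  have h2 := h1.restrictScalars ℝ
  have h3 : fderiv ℝ (fun z => (h (e.symm z)).re) (e x) =
      Complex.reCLM.comp (fderiv ℝ (fun z => h (e.symm z)) (e x)) :=
    (Complex.reCLM.hasFDerivAt.comp (e x) h2.hasFDerivAt).fderiv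
  have h4 : fderiv ℝ (fun z => (h (e.symm z)).im) (e x) =
      Complex.imCLM.comp (fderiv ℝ (fun z => h (e.symm z)) (e x)) :=
    (Complex.imCLM.hasFDerivAt.comp (e x) h2.hasFDerivAt).fderiv
  rw [h3, h4, h1.fderiv_restrictScalars ℝ]
  show -(fderiv ℂ (fun z => h (e.symm z)) (e x) (Complex.I • w 0)).re =
    (fderiv ℂ (fun z => h (e.symm z)) (e x) (w 0)).im
  rw [map_smul, smul_eq_mul, Complex.I_mul_re, neg_neg]

theorem HolF.eventually {h : H → ℂ} {x : H} (hh : HolF n h x) : ∀ᶠ y in 𝓝 x, HolF n h y := by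
  have he := at_chartAt (n := n) x
  set e := chartAt (Cm n) x
  have h1 := (hh e he).eventually_analyticAt
  filter_upwards [(e.continuousAt he.2).eventually h1, e.open_source.mem_nhds he.2] with y hy hy'
  exact holF_of ⟨he.1, hy'⟩ hy

/-- difference of the `d^c`'s of two functions with pluriharmonic difference -/
theorem ph_diff {u u' : H → ℝ} {V : Set H} (hV : IsOpen V) (hu : ∀ x ∈ V, SmR n u x)
    (hu' : ∀ x ∈ V, SmR n u' x) {x : H} (hx : x ∈ V) (h : PHAt n (fun y => u y - u' y) x) :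
    ∃ h : H → ℂ, HolF n h x ∧ ∀ᶠ y in 𝓝 x, HolF n h y ∧ u y - u' y = (h y).re ∧
      dc (n := n) u y - dc u' y = dF (zf fun y => (h y).im) y := by
  obtain ⟨h, hh, he⟩ := h
  refine ⟨h, hh, ?_⟩
  filter_upwards [hh.eventually, he, he.eventually_nhds, hV.mem_nhds hx] with y h1 h2 h3 h4
  refine ⟨h1, h2, ?_⟩
  rw [← dc_sub (hu y h4) (hu' y h4), dc_congr h3, dc_re h1]

theorem dF_dc_eq {u u' : H → ℝ} {V : Set H} (hV : IsOpen V) (hu : ∀ x ∈ V, SmR n u x)
    (hu' : ∀ x ∈ V, SmR n u' x) {x : H} (hx : x ∈ V) (h : PHAt n (fun y => u y - u' y) x) :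
    dF (dc (n := n) u) x = dF (dc u') x := by
  obtain ⟨h, hh, he⟩ := ph_diff hV hu hu' hx h
  obtain ⟨W, hW, hWo, hxW⟩ := eventually_nhds_iff.1 he
  have h1 : dF (fun y => dc (n := n) u y - dc u' y) x = 0 := by
    have h2 : (fun y => dc (n := n) u y - dc u' y) =ᶠ[𝓝 x] dF (zf fun y => (h y).im) :=
      he.mono fun y hy => hy.2.2
    rw [dF_congr h2]
    exact dF_dF hWo (fun y hy => smAt_zf (hW y hy).1.smF.im) hxW
  rw [dF_sub (smAt_dc hV hu hx) (smAt_dc hV hu' hx)] at h1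
  exact sub_eq_zero.1 h1

/-- small balls -/
theorem exists_conv {V : Set H} (hV : IsOpen V) {x : H} (hx : x ∈ V) :
    ∃ W ⊆ V, IsOpen W ∧ x ∈ W ∧ W ⊆ (chartAt (Cm n) x).source ∧
      Convex ℝ (chartAt (Cm n) x '' W) := by
  set e := chartAt (Cm n) x
  have hxe : x ∈ e.source := mem_chart_source _ x
  have h1 : e.target ∩ e.symm ⁻¹' V ∈ 𝓝 (e x) :=
    (e.isOpen_inter_preimage_symm hV).mem_nhds
      ⟨e.map_source hxe, by rw [mem_preimage, e.left_inv hxe]; exact hx⟩
  obtain ⟨r, hr, hb⟩ := Metric.mem_nhds_iff.1 h1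
  refine ⟨e.source ∩ e ⁻¹' ball (e x) r, fun y hy => ?_, e.isOpen_inter_preimage isOpen_ball,
    ⟨hxe, mem_ball_self hr⟩, inter_subset_left, ?_⟩
  · have := (hb hy.2).2
    rwa [mem_preimage, e.left_inv hy.1] at this
  · have : e '' (e.source ∩ e ⁻¹' ball (e x) r) = ball (e x) r := by
      apply Subset.antisymm
      · rintro _ ⟨y, hy, rfl⟩
        exact hy.2
      · intro z hz
        have h2 := (hb hz).1
        exact ⟨e.symm z, ⟨e.map_target h2, by rw [mem_preimage, e.right_inv h2]; exact hz⟩,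
          e.right_inv h2⟩
    rw [this]
    exact convex_ball _ _

theorem local_prim {θ : H → Cm n [⋀^Fin 1]→L[ℝ] ℝ} {V : Set H} (hV : IsOpen V)
    (hθ : ∀ x ∈ V, SmAt θ x) (hc : ∀ x ∈ V, dF θ x = 0) {x : H} (hx : x ∈ V) :
    ∃ W ⊆ V, IsOpen W ∧ x ∈ W ∧ ∃ v : H → ℝ, (∀ y ∈ W, SmR n v y) ∧
      ∀ y ∈ W, dF (zf v) y = θ y := by
  obtain ⟨W, hWV, hW, hxW, hWe, hconv⟩ := exists_conv (n := n) hV hx
  obtain ⟨b, hb, hbd⟩ := exists_prim (chart_mem_atlas _ x) hW hWe hconv
    (fun y hy => hθ y (hWV hy)) (fun y hy => hc y (hWV hy))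
  obtain ⟨v, rfl⟩ := exists_zf b
  exact ⟨W, hWV, hW, hxW, v, fun y hy => smR_of_smAt (hb y hy), hbd⟩

theorem local_const {v : H → ℝ} {x : H} (hv : ∀ᶠ y in 𝓝 x, SmR n v y)
    (hd : ∀ᶠ y in 𝓝 x, dF (zf (n := n) v) y = 0) : ∃ r : ℝ, ∀ᶠ y in 𝓝 x, v y = r := by
  obtain ⟨V, hV, hVo, hxV⟩ := eventually_nhds_iff.1 (hv.and hd)
  obtain ⟨W, hWV, hW, hxW, hWe, hconv⟩ := exists_conv (n := n) hVo hxV
  obtain ⟨r, hr⟩ := eq_const (chart_mem_atlas _ x) hW hWe hconv
    (fun y hy => smAt_zf (hV y (hWV hy)).1) (fun y hy => (hV y (hWV hy)).2)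
  refine ⟨r, ?_⟩
  filter_upwards [hW.mem_nhds hxW] with y hy
  have := DFunLike.congr_fun (hr y hy) 0
  exact this

end mfd

end Vale.Agent.P277.PH
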