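import Vale.Agent.P277.H29.PH.Basic
import Mathlib.Geometry.Manifold.PartitionOfUnity

/-!
# P277, P1: finite covers by coordinate balls, solution of `∂̄` in the charts
-/

set_option linter.unusedSectionVars false

open scoped Manifold ContDiff Topology
open Vale.Agent.P272.K Vale.Agent.P285.H281.FD Vale.Agent.P267.H175 Set Metric Filter

noncomputable section

namespace Vale.Agent.P277.PH

/-- finite cover by coordinate balls -/
structure Cov (n : ℕ) (H : Type) [TopologicalSpace H] [ChartedSpace (Cm n) H] where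
  A : Type
  fin : Fintype A
  dec : DecidableEq A
  e : A → Chart n H
  he : ∀ a, e a ∈ atlas (Cm n) H
  c : A → Cm n
  ρ : A → ℝ
  hρ : ∀ a, 0 < ρ a
  ht : ∀ a, closedBall (c a) (4 * ρ a) ⊆ (e a).target
  cov : ∀ x, ∃ a, x ∈ (e a).source ∧ e a x ∈ ball (c a) (ρ a)

attribute [instance] Cov.fin Cov.dec

variable {n : ℕ} {H : Type} [TopologicalSpace H] [ChartedSpace (Cm n) H]

/-- the coordinate balls -/
def Cov.V (D : Cov n H) (k : ℝ) (a : D.A) : Set H :=
  (D.e a).source ∩ D.e a ⁻¹' ball (D.c a) (k * D.ρ a)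

/-- the closed coordinate balls -/
def Cov.K (D : Cov n H) (k : ℝ) (a : D.A) : Set H :=
  (D.e a).symm '' closedBall (D.c a) (k * D.ρ a)

theorem Cov.isOpen (D : Cov n H) (k : ℝ) (a : D.A) : IsOpen (D.V k a) :=
  (D.e a).isOpen_inter_preimage isOpen_ball

theorem Cov.mono (D : Cov n H) {k l : ℝ} (h : k ≤ l) (a : D.A) : D.V k a ⊆ D.V l a := by
  rintro x ⟨hx, hx'⟩
  exact ⟨hx, ball_subset_ball (mul_le_mul_of_nonneg_right h (D.hρ a).le) hx'⟩

theorem Cov.at {D : Cov n H} {k : ℝ} {a : D.A} {x : H} (hx : x ∈ D.V k a) : At (D.e a) x :=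
  ⟨D.he a, hx.1⟩

theorem Cov.exists_mem (D : Cov n H) {k : ℝ} (h : 1 ≤ k) (x : H) : ∃ a, x ∈ D.V k a := by
  obtain ⟨a, h1, h2⟩ := D.cov x
  exact ⟨a, D.mono h a ⟨h1, by simpa using h2⟩⟩

theorem Cov.closedBall_sub (D : Cov n H) {k : ℝ} (h : k ≤ 4) (a : D.A) :
    closedBall (D.c a) (k * D.ρ a) ⊆ (D.e a).target :=
  (closedBall_subset_closedBall (mul_le_mul_of_nonneg_right h (D.hρ a).le)).trans (D.ht a)

theorem Cov.isCompact_K (D : Cov n H) {k : ℝ} (h : k ≤ 4) (a : D.A) : IsCompact (D.K k a) :=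
  (isCompact_closedBall _ _).image_of_continuousOn
    ((D.e a).continuousOn_symm.mono (D.closedBall_sub h a))

theorem Cov.V_sub_K (D : Cov n H) (k : ℝ) (a : D.A) : D.V k a ⊆ D.K k a := by
  rintro x ⟨hx, hx'⟩
  exact ⟨D.e a x, ball_subset_closedBall hx', (D.e a).left_inv hx⟩

theorem Cov.K_sub_V (D : Cov n H) {k l : ℝ} (h : k < l) (hl : l ≤ 4) (a : D.A) :
    D.K k a ⊆ D.V l a := by
  rintro x ⟨z, hz, rfl⟩
  have hz' := D.closedBall_sub (h.le.trans hl) a hz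
  refine ⟨(D.e a).map_target hz', ?_⟩
  rw [mem_preimage, (D.e a).right_inv hz']
  exact closedBall_subset_ball (mul_lt_mul_of_pos_right h (D.hρ a)) hz

theorem exists_cov [CompactSpace H] : Nonempty (Cov n H) := by
  have h1 : ∀ x : H, ∃ ρ : ℝ, 0 < ρ ∧
      closedBall (chartAt (Cm n) x x) (4 * ρ) ⊆ (chartAt (Cm n) x).target := by
    intro x
    obtain ⟨r, hr, h⟩ := Metric.isOpen_iff.1 (chartAt (Cm n) x).open_target _
      (mem_chart_target (Cm n) x)
    exact ⟨r / 8, by positivity, (closedBall_subset_ball (by linarith)).trans h⟩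
  choose ρ hρ ht using h1
  have h2 : ∀ x : H, (chartAt (Cm n) x).source ∩
      chartAt (Cm n) x ⁻¹' ball (chartAt (Cm n) x x) (ρ x) ∈ 𝓝 x := fun x =>
    ((chartAt (Cm n) x).isOpen_inter_preimage isOpen_ball).mem_nhds
      ⟨mem_chart_source (Cm n) x, mem_ball_self (hρ x)⟩
  obtain ⟨t, ht'⟩ := finite_cover_nhds h2
  classical
  refine ⟨⟨{x // x ∈ t}, inferInstance, inferInstance, fun a => chartAt (Cm n) a.1,
    fun a => chart_mem_atlas _ _, fun a => chartAt (Cm n) a.1 a.1, fun a => ρ a.1,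
    fun a => hρ a.1, fun a => ht a.1, fun x => ?_⟩⟩
  have h3 : x ∈ ⋃ y ∈ t, (chartAt (Cm n) y).source ∩
      chartAt (Cm n) y ⁻¹' ball (chartAt (Cm n) y y) (ρ y) := ht'.symm ▸ mem_univ x
  obtain ⟨y, hy, hxy⟩ := mem_iUnion₂.1 h3
  exact ⟨⟨y, hy⟩, hxy.1, hxy.2⟩

variable [IsManifold 𝓘(ℂ, Cm n) ω H]

/-- solution of `∂̄` in the charts of a cover -/
theorem dbar_cov (HD : StDbar) (D : Cov n H) {ι : Type} {U : ι → Set H} {g : ι → H → ℂ}
    (hU : ∀ i, IsOpen (U i)) (hc : ∀ x, ∃ i, x ∈ U i) (hg : ∀ i, ∀ x ∈ U i, SmF n (g i) x)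
    (hd : ∀ i j, ∀ x ∈ U i ∩ U j, HolF n (fun y => g i y - g j y) x) :
    ∃ F : D.A → H → ℂ, (∀ a, ∀ x ∈ D.V (7 / 2) a, SmF n (F a) x) ∧
      (∀ a i, ∀ x ∈ D.V (7 / 2) a ∩ U i, HolF n (fun y => F a y - g i y) x) ∧
      ∀ a, ∃ C : ℝ, ∀ x ∈ D.V 3 a, ‖F a x‖ ≤ C := by
  have h1 : ∀ a, ∃ f : Cm n → ℂ, ContDiff ℝ ∞ f ∧
      ∀ i, ∀ z ∈ ((D.e a).target ∩ (D.e a).symm ⁻¹' U i) ∩ ball (D.c a) (7 / 2 * D.ρ a),
        AnalyticAt ℂ (fun z => f z - g i ((D.e a).symm z)) z := by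
    intro a
    have hat : ∀ z ∈ (D.e a).target, At (D.e a) ((D.e a).symm z) := fun z hz =>
      ⟨D.he a, (D.e a).map_target hz⟩
    refine HD n (D.c a) (7 / 2 * D.ρ a) (4 * D.ρ a) (by have := D.hρ a; positivity)
      (by have := D.hρ a; linarith) ι (fun i => (D.e a).target ∩ (D.e a).symm ⁻¹' U i)
      (fun i z => g i ((D.e a).symm z)) (fun i => (D.e a).isOpen_inter_preimage_symm (hU i))
      ?_ ?_ ?_
    · intro z hz
      obtain ⟨i, hi⟩ := hc ((D.e a).symm z)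
      exact mem_iUnion.2 ⟨i, D.ht a (ball_subset_closedBall hz), hi⟩
    · intro i z hz
      have := hg i _ hz.2 (D.e a) (hat z hz.1)
      rwa [(D.e a).right_inv hz.1] at this
    · intro i j z hz
      have := hd i j _ ⟨hz.1.2, hz.2.2⟩ (D.e a) (hat z hz.1.1)
      rwa [(D.e a).right_inv hz.1.1] at this
  choose f hf hfg using h1
  refine ⟨fun a x => f a (D.e a x), fun a x hx => ?_, fun a i x hx => ?_, fun a => ?_⟩
  · refine smF_of (D.at hx) ?_
    refine ((hf a).contDiffAt (x := D.e a x)).congr_of_eventuallyEq ?_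
    filter_upwards [(D.e a).open_target.mem_nhds ((D.e a).map_source hx.1)] with z hz
    rw [(D.e a).right_inv hz]
  · refine holF_of (D.at hx.1) ?_
    have h2 : D.e a x ∈ ((D.e a).target ∩ (D.e a).symm ⁻¹' U i) ∩
        ball (D.c a) (7 / 2 * D.ρ a) := by
      refine ⟨⟨(D.e a).map_source hx.1.1, ?_⟩, hx.1.2⟩
      rw [mem_preimage, (D.e a).left_inv hx.1.1]
      exact hx.2
    refine (hfg a i _ h2).congr ?_
    filter_upwards [(D.e a).open_target.mem_nhds ((D.e a).map_source hx.1.1)] with z hz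
    rw [(D.e a).right_inv hz]
  · obtain ⟨C, hC⟩ := (isCompact_closedBall (D.c a) (3 * D.ρ a)).exists_bound_of_continuousOn
      (hf a).continuous.continuousOn
    exact ⟨C, fun x hx => hC _ (ball_subset_closedBall hx.2)⟩

end Vale.Agent.P277.PH
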