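import Vale.Agent.P277.H29.PH.Dc

/-!
# P277, P1: finiteness for pluriharmonic functions from `H^1(H, O)` and `b_2`
-/

set_option linter.unusedSectionVars false

open scoped Manifold ContDiff Topology
open Vale.Agent.P272.K Vale.Agent.P285.H281.FD Vale.Agent.P267.H175 Set Metric Filter

noncomputable section

namespace Vale.Agent.P277.PH

/-- independent solutions of a homogeneous linear system -/
theorem exists_ker {N b h : ℕ} (hN : b + h < N) (s : Fin N → Fin b → ℝ) :
    ∃ t : Fin (h + 1) → Fin N → ℝ, LinearIndependent ℝ t ∧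
      ∀ l i, ∑ k, t l k * s k i = 0 := by
  let S : (Fin N → ℝ) →ₗ[ℝ] (Fin b → ℝ) := (Matrix.of fun i k => s k i).mulVecLin
  have h1 := S.finrank_range_add_finrank_ker
  have h2 : Module.finrank ℝ S.range ≤ b := by
    have := S.range.finrank_le
    rwa [Module.finrank_fin_fun] at this
  rw [Module.finrank_fin_fun] at h1
  have h3 : h + 1 ≤ Module.finrank ℝ S.ker := by omega
  let B := Module.finBasis ℝ S.ker
  refine ⟨fun l => (B (Fin.castLE h3 l) : Fin N → ℝ), ?_, fun l i => ?_⟩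
  · have h4 := B.linearIndependent.comp (Fin.castLE h3) (Fin.castLE_injective h3)
    exact h4.map' S.ker.subtype (by simp)
  · have h5 : S (B (Fin.castLE h3 l) : Fin N → ℝ) = 0 := (B (Fin.castLE h3 l)).2
    have h6 := congrFun h5 i
    rw [Matrix.mulVecLin_apply] at h6
    have h7 : ∑ k, s k i * (B (Fin.castLE h3 l) : Fin N → ℝ) k = 0 := h6
    rw [← h7]
    exact Finset.sum_congr rfl fun k _ => mul_comm _ _

theorem stPH_of (HF : StFinO) (HE : StE) : StPH := by
  intro n H _ _ _ _ _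
  obtain ⟨h, hh⟩ := HF n H
  obtain ⟨b, a, ha, hex⟩ := HE (Cm n) H 1
  refine ⟨b + h, fun N hN ι U f hU hc hf hd => ?_⟩
  choose j hj using hc
  -- the forms `dd^c f`
  let om : Fin N → H → Cm n [⋀^Fin 2]→L[ℝ] ℝ := fun k x => dF (dc (n := n) (f k (j k x))) x
  have hom : ∀ k i x, x ∈ U k i → om k x = dF (dc (f k i)) x := by
    intro k i x hx
    exact dF_dc_eq ((hU k (j k x)).inter (hU k i)) (fun y hy => hf k _ y hy.1)
      (fun y hy => hf k _ y hy.2) ⟨hj k x, hx⟩ (hd k _ _ x ⟨hj k x, hx⟩)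
  have hom' : ∀ k x, om k =ᶠ[𝓝 x] dF (dc (f k (j k x))) := fun k x => by
    filter_upwards [(hU k (j k x)).mem_nhds (hj k x)] with y hy
    exact hom k _ y hy
  have hsd : ∀ k i, ∀ x ∈ U k i, SmAt (dc (n := n) (f k i)) x := fun k i x hx =>
    smAt_dc (hU k i) (hf k i) hx
  obtain ⟨s, β, hβ, hs⟩ : ∃ (s : Fin N → Fin b → ℝ) (β : Fin N → H → Cm n [⋀^Fin 1]→L[ℝ] ℝ),
      (∀ k y, SmAt (β k) y) ∧ ∀ k y, om k y = ∑ i, s k i • a i y + dF (β k) y := by
    have := fun k => hex (om k) (fun y => ⟨(smAt_dF (hU k (j k y)) (hsd k _) (hj k y)).congr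
      (hom' k y), by
        rw [dF_congr (hom' k y)]
        exact dF_dF (hU k (j k y)) (hsd k _) (hj k y)⟩)
    choose s β h1 h2 using this
    exact ⟨s, β, h1, h2⟩
  obtain ⟨t, ht, hts⟩ := exists_ker hN s
  -- local primitives
  let I' : Type := Σ' (i : ∀ k, ι k), {x : H // ∀ k, x ∈ U k (i k)}
  let V : (∀ k, ι k) → Set H := fun i => ⋂ k, U k (i k)
  have hV : ∀ i, IsOpen (V i) := fun i => isOpen_iInter_of_finite fun k => hU k (i k)
  have hVU : ∀ i k, ∀ x ∈ V i, x ∈ U k (i k) := fun i k x hx => mem_iInter.1 hx k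
  let θ : Fin (h + 1) → (∀ k, ι k) → H → Cm n [⋀^Fin 1]→L[ℝ] ℝ := fun l i x =>
    ∑ k, t l k • (dc (n := n) (f k (i k)) x - β k x)
  have hterm : ∀ i k, ∀ x ∈ V i, SmAt (fun y => dc (n := n) (f k (i k)) y - β k y) x :=
    fun i k x hx => SmAt.sub' (hsd k _ x (hVU i k x hx)) (hβ k x)
  have hθ : ∀ l i, ∀ x ∈ V i, SmAt (θ l i) x := fun l i x hx =>
    smAt_lsum _ _ (fun k y => dc (n := n) (f k (i k)) y - β k y) fun k => hterm i k x hx
  have hθc : ∀ l i, ∀ x ∈ V i, dF (θ l i) x = 0 := by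
    intro l i x hx
    have h1 := dF_lsum Finset.univ (t l) (fun k y => dc (n := n) (f k (i k)) y - β k y)
      fun k => hterm i k x hx
    rw [show dF (θ l i) x = _ from h1]
    have h2 : ∀ k, dF (fun y => dc (n := n) (f k (i k)) y - β k y) x = ∑ m, s k m • a m x := by
      intro k
      rw [dF_sub (hsd k _ x (hVU i k x hx)) (hβ k x), ← hom k (i k) x (hVU i k x hx), hs]
      exact add_sub_cancel_right _ _
    simp only [h2, Finset.smul_sum]
    rw [Finset.sum_comm]
    refine Finset.sum_eq_zero fun m _ => ?_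
    have h3 : ∀ k, t l k • s k m • a m x = (t l k * s k m) • a m x := fun k => by
      ext w
      show t l k * (s k m * a m x w) = (t l k * s k m) * a m x w
      ring
    simp only [h3]
    rw [← Finset.sum_smul, hts, zero_smul]
  have hprim := fun (l : Fin (h + 1)) (p : I') => local_prim (hV p.1) (hθ l p.1) (hθc l p.1)
    (mem_iInter.2 p.2.2 : p.2.1 ∈ V p.1)
  choose W hWV hWo hxW v hv hvd using hprim
  have hWU : ∀ l p k, ∀ x ∈ W l p, x ∈ U k (p.1 k) := fun l p k x hx => hVU _ k x (hWV l p hx)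
  let g : Fin (h + 1) → I' → H → ℂ := fun l p x =>
    ((∑ k, t l k * f k (p.1 k) x : ℝ) : ℂ) + Complex.I * (v l p x : ℂ)
  have hgs : ∀ l p, ∀ x ∈ W l p, SmF n (g l p) x := fun l p x hx =>
    SmF.add (SmR.ofReal (SmR.sum fun k _ => (hf k _ x (hWU l p k x hx)).const_mul _))
      ((hv l p x hx).ofReal.const_mul _)
  have hgd : ∀ l p q, ∀ x ∈ W l p ∩ W l q, HolF n (fun y => g l p y - g l q y) x := by
    intro l p q x hx
    have h1 := fun k => ph_diff ((hU k (p.1 k)).inter (hU k (q.1 k))) (fun y hy => hf k _ y hy.1)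
      (fun y hy => hf k _ y hy.2) ⟨hWU l p k x hx.1, hWU l q k x hx.2⟩
      (hd k _ _ x ⟨hWU l p k x hx.1, hWU l q k x hx.2⟩)
    choose w hw hwe using h1
    have hwe' : ∀ᶠ y in 𝓝 x, ∀ k, HolF n (w k) y ∧ f k (p.1 k) y - f k (q.1 k) y = (w k y).re ∧
        dc (n := n) (f k (p.1 k)) y - dc (f k (q.1 k)) y = dF (zf fun y => (w k y).im) y :=
      eventually_all.2 hwe
    have hpq : ∀ᶠ y in 𝓝 x, y ∈ W l p ∩ W l q := ((hWo l p).inter (hWo l q)).mem_nhds hx
    let r : H → ℝ := fun y => (v l p y - v l q y) - ∑ k, t l k * (w k y).im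
    obtain ⟨C, hC⟩ := local_const (n := n) (v := r) (x := x) (by
      filter_upwards [hwe', hpq] with y h1 h2
      exact ((hv l p y h2.1).sub (hv l q y h2.2)).sub
        (SmR.sum fun k _ => (h1 k).1.smF.im.const_mul _)) (by
      filter_upwards [hwe', hpq] with y h1 h2
      have e1 : zf (n := n) r = fun y => (zf (v l p) y - zf (v l q) y) -
          ∑ k, t l k • zf (fun y => (w k y).im) y := by
        funext y
        ext m
        simp only [ContinuousAlternatingMap.sub_apply, ContinuousAlternatingMap.sum_apply,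
          ContinuousAlternatingMap.smul_apply]
        rfl
      have s1 := smAt_zf (n := n) (hv l p y h2.1)
      have s2 := smAt_zf (n := n) (hv l q y h2.2)
      have s3 : ∀ k, SmAt (zf (n := n) fun y => (w k y).im) y := fun k => smAt_zf (h1 k).1.smF.im
      rw [e1, dF_sub (SmAt.sub' s1 s2) (smAt_lsum _ _ _ s3), dF_sub s1 s2, dF_lsum _ _ _ s3,
        hvd l p y h2.1, hvd l q y h2.2]
      show (∑ k, t l k • (dc (n := n) (f k (p.1 k)) y - β k y)) -
        (∑ k, t l k • (dc (n := n) (f k (q.1 k)) y - β k y)) - _ = 0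
      rw [← Finset.sum_sub_distrib, ← Finset.sum_sub_distrib]
      refine Finset.sum_eq_zero fun k _ => ?_
      rw [← (h1 k).2.2]
      ext m
      show t l k * (dc (n := n) (f k (p.1 k)) y m - β k y m) -
        t l k * (dc (n := n) (f k (q.1 k)) y m - β k y m) -
        t l k * (dc (n := n) (f k (p.1 k)) y m - dc (n := n) (f k (q.1 k)) y m) = 0
      ring)
    have h2 : HolF n (fun y => ∑ k, (t l k : ℂ) * w k y + Complex.I * (C : ℂ)) x :=
      (HolF.sum fun k _ => (hw k).const_mul _).add (HolF.const _)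
    refine h2.congr ?_
    filter_upwards [hwe', hC] with y h3 h4
    have h5 : v l p y - v l q y = (∑ k, t l k * (w k y).im) + C := by
      rw [← h4]
      ring
    have h6 : ∑ k, t l k * f k (p.1 k) y - ∑ k, t l k * f k (q.1 k) y =
        ∑ k, t l k * (w k y).re := by
      rw [← Finset.sum_sub_distrib]
      exact Finset.sum_congr rfl fun k _ => by rw [← (h3 k).2.1]; ring
    have h7 : ∑ k, (t l k : ℂ) * w k y = ((∑ k, t l k * (w k y).re : ℝ) : ℂ) +
        Complex.I * ((∑ k, t l k * (w k y).im : ℝ) : ℂ) := by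
      rw [Complex.ofReal_sum, Complex.ofReal_sum, Finset.mul_sum, ← Finset.sum_add_distrib]
      refine Finset.sum_congr rfl fun k _ => ?_
      conv_lhs => rw [← Complex.re_add_im (w k y)]
      push_cast
      ring
    show _ = (((∑ k, t l k * f k (p.1 k) y : ℝ) : ℂ) + Complex.I * (v l p y : ℂ)) -
      (((∑ k, t l k * f k (q.1 k) y : ℝ) : ℂ) + Complex.I * (v l q y : ℂ))
    rw [h7, ← h6]
    have h8 : (v l p y : ℂ) = (v l q y : ℂ) + ((∑ k, t l k * (w k y).im : ℝ) : ℂ) + (C : ℂ) := by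
      rw [← Complex.ofReal_add, ← Complex.ofReal_add]
      congr 1
      linarith
    rw [h8, Complex.ofReal_sub]
    ring
  obtain ⟨c, φ, hc0, hφ, hfin⟩ := hh (h + 1) (Nat.lt_succ_self h) (fun _ => I') W g hWo
    (fun l x => ⟨⟨fun k => j k x, ⟨x, fun k => hj k x⟩⟩, hxW l _⟩) hgs hgd
  refine ⟨fun k => ∑ l, c l * t l k, fun x => (φ x).re, fun h0 => ?_, fun x => (hφ x).re,
    fun i x hx => ?_⟩
  · refine hc0 ?_
    have h1 : ∑ l, c l • t l = 0 := by
      funext k
      have := congrFun h0 k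
      simpa [Finset.sum_apply] using this
    exact funext fun l => Fintype.linearIndependent_iff.1 ht c h1 l
  · have h1 := (hfin (fun _ => ⟨i, ⟨x, hx⟩⟩) x fun l => hxW l _).phRe
    refine h1.congr (Eventually.of_forall fun y => ?_)
    rw [Complex.add_re, Complex.re_sum]
    congr 1
    have h2 : ∀ l, ((c l : ℂ) * g l ⟨i, ⟨x, hx⟩⟩ y).re = ∑ k, c l * t l k * f k (i k) y := by
      intro l
      rw [Complex.re_ofReal_mul]
      show c l * (((∑ k, t l k * f k (i k) y : ℝ) : ℂ) + Complex.I * (v l _ y : ℂ)).re = _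
      rw [Complex.add_re, Complex.ofReal_re, Complex.I_mul_re, Complex.ofReal_im, neg_zero,
        add_zero, Finset.mul_sum]
      exact Finset.sum_congr rfl fun k _ => by ring
    simp only [h2]
    rw [Finset.sum_comm]
    exact Finset.sum_congr rfl fun k _ => by rw [Finset.sum_mul]

end Vale.Agent.P277.PH
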